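import Vale.Agent.P027M.FA.CartDef
import Vale.Agent.P027M.D.Fc
import Vale.Agent.P027M.D.Vals
import Vale.Agent.P027M.F.Res

/-! # P027, route M : the primes `11` and `23` are good, and the traces there do not vanish -/

set_option linter.all false

open Polynomial NumberField Vale.Agent.P022

noncomputable section

namespace Vale.Agent.P027M.Top

open F FA

namespace Hw

section poly

variable {k : Type*} [Field k] (T : k)

theorem pow11 : (X * (X ^ 2 - C T) * (X ^ 2 - C (2 * T)) * (X ^ 2 - C (3 * T))) ^ 5 =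
      C ((-7776) * T ^ 15) * X ^ 5 +
      C ((71280) * T ^ 14) * X ^ 7 +
      C ((-300240) * T ^ 13) * X ^ 9 +
      C ((770760) * T ^ 12) * X ^ 11 +
      C ((-1348590) * T ^ 11) * X ^ 13 +
      C ((1703651) * T ^ 10) * X ^ 15 +
      C ((-1605510) * T ^ 9) * X ^ 17 +
      C ((1149605) * T ^ 8) * X ^ 19 +
      C ((-630780) * T ^ 7) * X ^ 21 +
      C ((265310) * T ^ 6) * X ^ 23 +
      C ((-84876) * T ^ 5) * X ^ 25 +
      C ((20290) * T ^ 4) * X ^ 27 +
      C ((-3510) * T ^ 3) * X ^ 29 +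
      C ((415) * T ^ 2) * X ^ 31 +
      C ((-30) * T ^ 1) * X ^ 33 +
      C ((1) * T ^ 0) * X ^ 35 := by
  simp only [map_mul, map_pow, map_neg, map_ofNat, map_one]
  ring

theorem co11 : ((X * (X ^ 2 - C T) * (X ^ 2 - C (2 * T)) * (X ^ 2 - C (3 * T))) ^ 5).coeff 21 =
    (-630780) * T ^ 7 := by
  rw [pow11]
  simp only [coeff_add, coeff_C_mul_X_pow, Nat.reduceEqDiff, if_true, if_false, add_zero, zero_add]

theorem pow23 : (X * (X ^ 2 - C T) * (X ^ 2 - C (4 * T)) * (X ^ 2 - C (8 * T))) ^ 11 =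
      C ((-36028797018963968) * T ^ 33) * X ^ 11 +
      C ((544935554911830016) * T ^ 32) * X ^ 13 +
      C ((-3907435626697326592) * T ^ 31) * X ^ 15 +
      C ((17680217343382257664) * T ^ 30) * X ^ 17 +
      C ((-56693810199758110720) * T ^ 29) * X ^ 19 +
      C ((137186485811053330432) * T ^ 28) * X ^ 21 +
      C ((-260489533131057004544) * T ^ 27) * X ^ 23 +
      C ((398526924771733536768) * T ^ 26) * X ^ 25 +
      C ((-500639778335134580736) * T ^ 25) * X ^ 27 +
      C ((523716730782167859200) * T ^ 24) * X ^ 29 +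
      C ((-461141287530907303936) * T ^ 23) * X ^ 31 +
      C ((344643007420240494592) * T ^ 22) * X ^ 33 +
      C ((-220070943733316583424) * T ^ 21) * X ^ 35 +
      C ((120690091706825310208) * T ^ 20) * X ^ 37 +
      C ((-57077323166017454080) * T ^ 19) * X ^ 39 +
      C ((23350049771216470016) * T ^ 18) * X ^ 41 +
      C ((-8281708366539497472) * T ^ 17) * X ^ 43 +
      C ((2550271743927097344) * T ^ 16) * X ^ 45 +
      C ((-682295847352818688) * T ^ 15) * X ^ 47 +
      C ((158568395726586560) * T ^ 14) * X ^ 49 +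
      C ((-31980713545971344) * T ^ 13) * X ^ 51 +
      C ((5586670505095988) * T ^ 12) * X ^ 53 +
      C ((-842785610973341) * T ^ 11) * X ^ 55 +
      C ((109331191511927) * T ^ 10) * X ^ 57 +
      C ((-12126532477675) * T ^ 9) * X ^ 59 +
      C ((1141199567277) * T ^ 8) * X ^ 61 +
      C ((-90196078434) * T ^ 7) * X ^ 63 +
      C ((5905784038) * T ^ 6) * X ^ 65 +
      C ((-314429126) * T ^ 5) * X ^ 67 +
      C ((13258190) * T ^ 4) * X ^ 69 +
      C ((-425777) * T ^ 3) * X ^ 71 +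
      C ((9779) * T ^ 2) * X ^ 73 +
      C ((-143) * T ^ 1) * X ^ 75 +
      C ((1) * T ^ 0) * X ^ 77 := by
  simp only [map_mul, map_pow, map_neg, map_ofNat, map_one]
  ring

theorem co23 : ((X * (X ^ 2 - C T) * (X ^ 2 - C (4 * T)) * (X ^ 2 - C (8 * T))) ^ 11).coeff 45 =
    (2550271743927097344) * T ^ 16 := by
  rw [pow23]
  simp only [coeff_add, coeff_C_mul_X_pow, Nat.reduceEqDiff, if_true, if_false, add_zero, zero_add]

end poly

theorem cm11 {k : Type} [Field k] [CharP k 11] (P : Par k) (h : 16729 * P.g = 17689) :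
    B.cm P.fP 11 0 1 ≠ 0 := by
  have h0 : (11 : k) = 0 := by exact_mod_cast CharP.cast_eq_zero k 11
  have hg : P.g = 5 := by linear_combination 5 * h + (-7604 * P.g + 8040) * h0
  have hp := P.hp1
  have hc : P.c = 2 := by
    rw [Par.c, div_eq_iff hp, hg]
    linear_combination (-2) * h0
  have hd : P.d2 = 3 := by
    rw [Par.d2, div_eq_iff (pow_ne_zero _ hp), hg]
    linear_combination (-8) * h0
  rw [B.cm, pow_zero, one_mul, Par.fP, hc, hd]
  refine (co11 P.g0).trans_ne (mul_ne_zero (neg_ne_zero.2 ?_) (pow_ne_zero _ P.hg0))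
  exact_mod_cast (CharP.cast_eq_zero_iff k 11 630780).not.2 (by norm_num)

theorem cm23 {k : Type} [Field k] [CharP k 23] (P : Par k) (h : 16729 * P.g = 17689) :
    B.cm P.fP 23 0 1 ≠ 0 := by
  have h0 : (23 : k) = 0 := by exact_mod_cast CharP.cast_eq_zero k 23
  have hg : P.g = 6 := by linear_combination 3 * h + (-2182 * P.g + 2307) * h0
  have hp := P.hp1
  have hc : P.c = 4 := by
    rw [Par.c, div_eq_iff hp, hg]
    linear_combination (-2) * h0
  have hd : P.d2 = 8 := by
    rw [Par.d2, div_eq_iff (pow_ne_zero _ hp), hg]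
    linear_combination (-16) * h0
  rw [B.cm, pow_zero, one_mul, Par.fP, hc, hd]
  refine (co23 P.g0).trans_ne (mul_ne_zero ?_ (pow_ne_zero _ P.hg0))
  exact_mod_cast (CharP.cast_eq_zero_iff k 23 2550271743927097344).not.2 (by norm_num)

variable {g : ℚ} {p : ℕ}

theorem prime (hp : p = 11 ∨ p = 23) : p.Prime := by rcases hp with rfl | rfl <;> norm_num

theorem dvdW (hp : p = 11 ∨ p = 23) : p ∣ W0 := by
  rcases hp with rfl | rfl <;> norm_num [W0]

/-- the congruence for the parameter, as an integral identity -/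
theorem ident (hg : Std g) (hp : p = 11 ∨ p = 23) : ∃ (d : ℕ) (n : ℤ), ¬ p ∣ d ∧
    (d : ℚ) * (16729 * g - 17689) = p * n := by
  obtain ⟨u, hu, hc⟩ := hg.loc
  obtain ⟨w, hw⟩ := dvdW hp
  refine ⟨u.den, 16729 * w * u.num, fun h => ?_, ?_⟩
  · exact (prime hp).one_lt.ne' (Nat.eq_one_of_dvd_coprimes hc h (dvdW hp))
  · rw [hu, hw, g0]
    push_cast
    linear_combination (16729 * p * w : ℚ) * Rat.den_mul_eq_num u

theorem red_g (hg : Std g) (hp : p = 11 ∨ p = 23) {X : Cfg g} {Q : Ideal (𝓞 Qb)} {φ : GQ}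
    (D : RedD X p Q φ) : 16729 * D.P.g = 17689 := by
  obtain ⟨d, n, hd, e⟩ := ident hg hp
  obtain ⟨hm, hr⟩ := D.rg
  have e1 : (d : D.O) * (16729 * ⟨X.P.g, hm⟩ - 17689) = p * n := by
    apply Subtype.ext
    have := congrArg (Rat.cast : ℚ → Qb) e
    push_cast at this ⊢
    rw [X.P_g]
    exact this
  have e2 := congrArg D.red e1
  rw [map_mul, map_mul, map_sub, map_mul, hr, map_natCast, map_natCast, map_ofNat, map_ofNat,
    CharP.cast_eq_zero D.k p, zero_mul] at e2
  exact sub_eq_zero.1 ((mul_eq_zero.1 e2).resolve_left ((CharP.cast_eq_zero_iff D.k p d).not.2 hd))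

theorem not_vis (hg : Std g) (hp : p = 11 ∨ p = 23) : ¬ p ∣ 7 * 19 * Vis g := by
  intro h
  rcases ((prime hp).dvd_mul).1 h with h | h
  · revert h
    rcases hp with rfl | rfl <;> norm_num
  · obtain ⟨q, hq, k⟩ := (Prime.dvd_finsetProd_iff (prime hp).prime _).1 h
    have hq' : q.Prime := Nat.prime_of_mem_primeFactors (Finset.mem_filter.1 hq).1
    obtain rfl := (Nat.prime_dvd_prime_iff_eq (prime hp) hq').1 k
    have := hg.vis p hq
    omega

variable {O : ValuationSubring Qb}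

theorem int_unit (hp : p.Prime) (hv : O.valuation (p : Qb) < 1) {n : ℤ} (h : ¬ (p : ℤ) ∣ n) :
    O.valuation (n : Qb) = 1 := by
  have k := D.Vals.nat_unit O hp hv (n := n.natAbs) fun j => h (Int.natCast_dvd.2 j)
  rcases Int.natAbs_eq n with e | e
  · rw [e, Int.cast_natCast, k]
  · rw [e, Int.cast_neg, Int.cast_natCast, Valuation.map_neg, k]

theorem val_add (hg : Std g) (hp : p = 11 ∨ p = 23) (hv : O.valuation (p : Qb) < 1) (a : ℤ)
    (ha : ¬ (p : ℤ) ∣ 17689 + 16729 * a) : O.valuation ((g : Qb) + a) = 1 := by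
  obtain ⟨d, n, hd, e⟩ := ident hg hp
  have e1 := congrArg (Rat.cast : ℚ → Qb) e
  push_cast at e1
  have h1 := D.Vals.nat_unit O (prime hp) hv hd
  have h2 : O.valuation ((16729 : ℕ) : Qb) = 1 :=
    D.Vals.nat_unit O (prime hp) hv (by rcases hp with rfl | rfl <;> norm_num)
  have h3 : O.valuation ((d : Qb) * ((17689 + 16729 * a : ℤ) : Qb)) = 1 := by
    rw [map_mul, h1, int_unit (prime hp) hv ha, one_mul]
  have h4 := Valuation.map_add_eq_of_lt_left O.valuation
    (x := (d : Qb) * ((17689 + 16729 * a : ℤ) : Qb)) (y := (p : Qb) * n) (by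
      rw [h3, map_mul]
      exact lt_of_le_of_lt (mul_le_of_le_one_right' (D.Vals.int_le O n)) hv)
  rw [h3, show (d : Qb) * ((17689 + 16729 * a : ℤ) : Qb) + (p : Qb) * n =
    d * (((16729 : ℕ) : Qb) * (g + a)) by push_cast; linear_combination -e1, map_mul, map_mul, h1,
    h2, one_mul, one_mul] at h4
  exact h4

theorem one_of_mul {x y : O.ValueGroup} (hx : x ≤ 1) (hy : y ≤ 1) (h : x * y = 1) : x = 1 :=
  le_antisymm hx (h ▸ mul_le_of_le_one_right' hy)

end Hw

open Hw

/-- `11` and `23` are good for the level -/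
theorem good11 {g : ℚ} {p : ℕ} (hg : Std g) (hp : p = 11 ∨ p = 23) : GoodP (lev g) p := by
  refine ⟨prime hp, fun h => ?_⟩
  rw [lev, ← mul_assoc] at h
  rcases ((prime hp).dvd_mul).1 h with h | h
  · revert h
    rcases hp with rfl | rfl <;> norm_num
  · exact not_vis hg hp h

/-- `11` and `23` are good for the model -/
theorem unit11 {g : ℚ} {p : ℕ} (hg : Std g) (X : Cfg g) (hp : p = 11 ∨ p = 23) : Unit X p := by
  intro O hv
  have a0 := val_add hg hp hv 0 (by rcases hp with rfl | rfl <;> norm_num)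
  have a1 := val_add hg hp hv 1 (by rcases hp with rfl | rfl <;> norm_num)
  have a2 := val_add hg hp hv (-3) (by rcases hp with rfl | rfl <;> norm_num)
  have a3 := val_add hg hp hv (-1) (by rcases hp with rfl | rfl <;> norm_num)
  have a4 := val_add hg hp hv 3 (by rcases hp with rfl | rfl <;> norm_num)
  have n2 : O.valuation ((2 : ℕ) : Qb) = 1 :=
    D.Vals.nat_unit O (prime hp) hv (by rcases hp with rfl | rfl <;> norm_num)
  have n3 : O.valuation ((3 : ℕ) : Qb) = 1 :=
    D.Vals.nat_unit O (prime hp) hv (by rcases hp with rfl | rfl <;> norm_num)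
  have n4 : O.valuation ((4 : ℕ) : Qb) = 1 :=
    D.Vals.nat_unit O (prime hp) hv (by rcases hp with rfl | rfl <;> norm_num)
  push_cast at a0 a1 a2 a3 a4 n2 n3 n4
  rw [← X.P_g] at a0 a1 a2 a3 a4
  rw [add_zero] at a0
  rw [← sub_eq_add_neg] at a2 a3
  rw [Valuation.map_sub_swap] at a2
  have hb : O.valuation X.P.b2 = 1 := by
    rw [Par.b2, map_div₀, map_mul, map_pow, map_pow, a0, a1, n4]; simp
  have hc : O.valuation X.P.c = 1 := by rw [Par.c, map_div₀, map_mul, a0, a1, a2]; simp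
  have hN : O.valuation (((X.d.β ^ 3).norm : ℤ) : Qb) = 1 := by
    refine int_unit (prime hp) hv fun h => not_vis hg hp ?_
    have k : (X.d.β ^ 3).norm ∣ (((7 * 19 * Vis g) ^ 9 : ℕ) : ℤ) := by
      obtain ⟨w, hw⟩ := pow_dvd_pow_of_dvd X.d.dvd_m 3
      refine ⟨w.norm, ?_⟩
      rw [← Zsqrtd.norm_mul, ← hw, ← pow_mul, Nat.cast_pow, ← X.d.normm]
      exact (map_pow Zsqrtd.normMonoidHom X.d.m 9).symm
    exact (prime hp).dvd_of_dvd_pow (Int.natCast_dvd_natCast.1 (h.trans k))
  have hi := D.Fc.hi' X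
  have e := congrArg O.valuation (D.Fc.gi_norm hi (X.d.β ^ 3))
  rw [map_mul, hN] at e
  have g1 := one_of_mul (D.Fc.gi_le hi _) (D.Fc.gi_le hi _) e
  rw [g1, one_mul] at e
  have h0 : O.valuation X.P.g0 = 1 := by
    rw [← X.P_D, Par.D, map_mul, hb, one_mul] at g1
    exact g1
  have h0' : O.valuation X.T.g0' = 1 := by
    obtain ⟨s, hs⟩ := ResAux.exists_s X.hi
    have ne : s (X.i : Qb) ≠ X.i := fun h => mul_ne_zero X.P.h2 X.P.i_ne (by
      rw [X.P_i]; linear_combination hs - h)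
    have k1 : s X.P.g0 = X.T.g0' := by rw [← X.hs]; exact (X.sw ne).2.1
    have k2 : s X.P.b2 = X.P.b2 := by
      simp only [Par.b2, X.P_g, map_div₀, map_mul, map_pow, map_add, map_ratCast, map_ofNat, map_one]
    have k3 := congrArg s X.P_D
    rw [Par.D, map_mul, k1, k2, show s (gi (X.i : Qb) (X.d.β ^ 3)) =
      gi (X.i : Qb) (star (X.d.β ^ 3)) by generalize X.d.β ^ 3 = z; simp [gi, hs]] at k3
    rw [← k3, map_mul, hb, one_mul] at e
    exact e
  have hν : O.valuation X.T.ν = 1 := D.Vals.pow_inj two_ne_zero (by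
    rw [← map_pow, X.T.hν, map_mul, map_mul, hc, h0, h0']; simp)
  have hx : O.valuation X.T.x = 1 := D.Vals.pow_inj two_ne_zero (by
    rw [← map_pow, X.T.hx, map_mul, map_pow, hν, hb]; simp)
  simp only [List.forall_mem_cons, List.not_mem_nil, false_imp_iff, implies_true, and_true]
  exact ⟨n2, n3, a0, a1, a2, a3, a4, h0, h0', hν, hx⟩

/-- the Frobenius map at `p ≡ 3 mod 4` conjugates the constants -/
theorem sw_of {g : ℚ} {X : Cfg g} {p : ℕ} {Q : Ideal (𝓞 Qb)} {φ : GQ} (D : RedD X p Q φ)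
    (hp : p % 4 = 3) : D.T.Sw D.f := by
  refine Tw.sw_of fun h => mul_ne_zero D.P.h2 D.P.i_ne ?_
  have h4 : D.P.i ^ 4 = 1 := by linear_combination (D.P.i ^ 2 - 1) * D.P.hi
  have e : ∀ n : ℕ, n % 4 = 3 → D.P.i ^ n = D.P.i ^ 3 := fun n hn => by
    rw [← Nat.div_add_mod n 4, hn, pow_add, pow_mul, h4, one_pow, one_mul]
  rw [D.hf, e p hp] at h
  linear_combination D.P.i * D.P.hi - h

/-- **Hasse-Witt** : the traces at `11` and `23` do not vanish -/
theorem hw (hC : CK3) {g : ℚ} {p : ℕ} (hg : Std g) (hp : p = 11 ∨ p = 23) {X : Cfg g}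
    {Q : Ideal (𝓞 Qb)} {φ : GQ} (D : RedD X p Q φ) {b : GaussianInt}
    (h : ∀ d, DId D.P d p (D.T.rr D.f) (p % 4 = 3) 1 b.re b.im) : b ≠ 0 := by
  rintro rfl
  have h3 : p % 4 = 3 := by omega
  rw [decide_eq_true h3] at h
  have k := (hC D.k D.P D.T D.f p _ _ (sw_of D h3) h 0).2
  have k0 : B.cm D.P.fP p 0 1 = 0 := by simpa using k
  have hr := red_g hg hp D
  rcases hp with rfl | rfl
  · exact cm11 D.P hr k0
  · exact cm23 D.P hr k0

end Vale.Agent.P027M.Top
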