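import Vale.Agent.P027M.Top.In23
import Vale.Agent.P027M.TW.All0
import Vale.Agent.P027M.F.All35
import Vale.Agent.P027M.F.Cfg
import Vale.Agent.P027M.F.Arith
import Vale.Agent.P027M.FA.All
import Vale.Agent.P027M.FA.Zex
import Vale.Agent.P027M.B2.All
import Vale.Agent.P027M.B3.All
import Vale.Agent.P027M.X.Top23
import Vale.Agent.P027M.X.Md1
import Vale.Agent.P027M.X.Md2b
import Vale.Agent.P027M.X.Md3
import Vale.Agent.P027M.X.Cyc
import Vale.Agent.P027M.X.Monb
import Vale.Agent.P027M.X.Latt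
import Vale.Agent.P027M.X.Finb
import Vale.Agent.P027M.X.Mons
import Vale.Agent.P027M.X.Eqh
import Vale.Agent.P027M.X.Sep
import Vale.Agent.P027M.X.Primo
import Vale.Agent.P027M.N.All
import Vale.Agent.P027M.A.Glue

/-! # P027, route M : the closed terms -/

set_option linter.all false

namespace Vale.Agent.P027M.Top

theorem cyp0 : CYP := fun _ Y hi r _ _ _ _ _ _ _ hg hr hk o1 o2 =>
  B2.cyp hg Y o1 o2 (FA.exists_e hk (good11 hg (Or.inl rfl)) (iO_sq (R := ℤ_[3])))
    (FA.exists_e hk (good11 hg (Or.inr rfl)) (iO_sq (R := ℤ_[3]))) (Nat.cast_ne_zero.2 hr)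
    (fun σ _ => map_natCast σ r) rfl hi

theorem in230 : X.In23 :=
  in23 (F.cfg F.arith) F.galaA FA.faith0 FA.ck30 FA.tr FA.zex TW.modK0 cyp0

theorem top230 : X.TOP23 :=
  have h := X.hex B2.hyps0 B2.hop0
  X.top23 (X.md1 M.grp ES.esc.1 B3.lowb B3.span0 B3.rst0 B3.idx B3.refl) X.Md.md2 X.md3 (X.cyc h)
    X.monb (X.latt X.monb X.finb X.mons h X.eqh X.eqi) X.primo

/-- **the height inequality** -/
theorem ht0 : HT := N.ht_of_out (top230 in230)

/-- **the negative answer** -/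
theorem neg0 : Vale.Agent.P027G.Neg := neg_of_HT ht0

end Vale.Agent.P027M.Top
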