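import Mathlib

/-! # P027 : the undecidability statement for instances `(n, f)` -/

open MvPolynomial

namespace Vale.Agent.P027M.Fin

/-- the polynomial in `n` variables written as a list of terms; a term is a coefficient and the
list (with repetitions) of the indices of the variables which are multiplied -/
noncomputable def poly (n : ℕ) (F : List (ℤ × List (Fin n))) : MvPolynomial (Fin n) ℤ :=
  (F.map fun t => C t.1 * (t.2.map X).prod).sum

/-- the code of such a list -/
def code (n : ℕ) (F : List (ℤ × List (Fin n))) : ℕ × List (ℤ × List ℕ) :=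
  (n, F.map fun t => (t.1, t.2.map Fin.val))

theorem poly_append (n : ℕ) (F G : List (ℤ × List (Fin n))) :
    poly n (F ++ G) = poly n F + poly n G := by
  simp [poly]

theorem poly_surj (n : ℕ) (f : MvPolynomial (Fin n) ℤ) : ∃ F, poly n F = f := by
  induction f using MvPolynomial.induction_on with
  | C a => exact ⟨[(a, [])], by simp [poly]⟩
  | add p q hp hq =>
    obtain ⟨F, rfl⟩ := hp
    obtain ⟨G, rfl⟩ := hq
    exact ⟨F ++ G, poly_append n F G⟩
  | mul_X p i hp =>
    obtain ⟨F, rfl⟩ := hp
    refine ⟨F.map fun t => (t.1, i :: t.2), ?_⟩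
    unfold poly
    rw [List.map_map, ← List.sum_map_mul_right]
    congr 1
    refine List.map_congr_left fun t _ => ?_
    simp only [Function.comp, List.map_cons, List.prod_cons]
    ring

theorem aeval_poly (n : ℕ) (F : List (ℤ × List (Fin n))) (y : Fin n → ℚ) :
    aeval y (poly n F) = (F.map fun t => (t.1 : ℚ) * (t.2.map y).prod).sum := by
  unfold poly
  rw [map_list_sum, List.map_map]
  congr 1
  refine List.map_congr_left fun t _ => ?_
  simp only [Function.comp, map_mul, map_list_prod, List.map_map, aeval_C]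
  congr 2
  refine List.map_congr_left fun i _ => ?_
  simp

/-- a bound for the indices -/
def bd (F : List (ℤ × List ℕ)) : ℕ := (F.map fun t => t.2.sum).sum + 1

theorem lt_bd {F : List (ℤ × List ℕ)} {t : ℤ × List ℕ} (ht : t ∈ F) {i : ℕ} (hi : i ∈ t.2) :
    i < bd F := by
  have h1 : i ≤ t.2.sum := List.single_le_sum (fun _ _ => Nat.zero_le _) _ hi
  have h2 : t.2.sum ≤ (F.map fun t => t.2.sum).sum :=
    List.single_le_sum (fun _ _ => Nat.zero_le _) _ (List.mem_map.2 ⟨t, ht, rfl⟩)
  unfold bd
  omega

theorem prim_sum : Primrec fun l : List ℕ => l.sum := by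
  have h : Primrec fun l : List ℕ => l.foldr (fun b s => b + s) 0 :=
    Primrec.list_foldr (f := fun l : List ℕ => l) (g := fun _ => 0)
      (h := fun _ (p : ℕ × ℕ) => p.1 + p.2) Primrec.id (Primrec.const 0)
      (Primrec.nat_add.comp (Primrec.fst.comp Primrec.snd) (Primrec.snd.comp Primrec.snd)).to₂
  exact h.of_eq fun l => (List.sum_eq_foldr).symm

theorem prim_bd : Primrec bd := by
  unfold bd
  refine Primrec.succ.comp (prim_sum.comp ?_)
  exact Primrec.list_map Primrec.id (prim_sum.comp (Primrec.snd.comp Primrec.snd)).to₂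

theorem strong (h : ¬ ComputablePred (fun F : List (ℤ × List ℕ) =>
    ∃ y : ℕ → ℚ, (F.map fun t => (t.1 : ℚ) * (t.2.map y).prod).sum = 0)) :
    ¬ ∃ d : ℕ × List (ℤ × List ℕ) → Bool, Computable d ∧
      ∀ (n : ℕ) (F : List (ℤ × List (Fin n))), 1 ≤ n →
        (d (code n F) = true ↔ ∃ y : Fin n → ℚ, aeval y (poly n F) = 0) := by
  rintro ⟨d, hd, H⟩
  apply h
  rw [ComputablePred.computable_iff]
  refine ⟨fun F => d (bd F, F), hd.comp (prim_bd.to_comp.pair Computable.id), ?_⟩
  funext F
  have p0 : 0 < bd F := Nat.succ_pos _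
  let φ : ℕ → Fin (bd F) := fun i => if h : i < bd F then ⟨i, h⟩ else ⟨0, p0⟩
  have hφ : ∀ t ∈ F, ∀ i ∈ t.2, (φ i : ℕ) = i := fun t ht i hi => by
    simp only [φ, dif_pos (lt_bd ht hi)]
  have hc : code (bd F) (F.map fun t => (t.1, t.2.map φ)) = (bd F, F) := by
    unfold code
    rw [List.map_map]
    congr 1
    conv_rhs => rw [← List.map_id F]
    refine List.map_congr_left fun t ht => ?_
    refine Prod.ext rfl ?_
    simp only [Function.comp, List.map_map, id]
    conv_rhs => rw [← List.map_id t.2]
    exact List.map_congr_left fun i hi => hφ t ht i hi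
  have key := H (bd F) (F.map fun t => (t.1, t.2.map φ)) p0
  rw [hc] at key
  rw [eq_iff_iff, key]
  constructor
  · rintro ⟨y, hy⟩
    refine ⟨fun i => y i, ?_⟩
    rw [aeval_poly, List.map_map, ← hy]
    congr 1
    refine List.map_congr_left fun t ht => ?_
    simp only [Function.comp, List.map_map]
    congr 2
    exact List.map_congr_left fun i hi => by simp only [Function.comp, hφ t ht i hi]
  · rintro ⟨y, hy⟩
    refine ⟨fun i => y (φ i), ?_⟩
    rw [aeval_poly, List.map_map] at hy
    rw [← hy]
    congr 1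
    refine List.map_congr_left fun t _ => ?_
    simp only [Function.comp, List.map_map]
    rfl

end Vale.Agent.P027M.Fin
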