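import Vale.Agent.P027G.Final
import Vale.Agent.P027Z.Undec
import Vale.Agent.P027M.Top.Fin

/-! # P027 : the forms of the negative answer -/

set_option linter.all false

namespace Vale.Agent.P027M.Fin

open MvPolynomial Vale.Agent.P027 Vale.Agent.P027.K2 Vale.Agent.P027Z

theorem dioZ (h : ∃ (m : ℕ) (g : MvPolynomial (Option (Fin m)) ℤ), ∀ x : ℚ,
    (∃ n : ℤ, x = n) ↔ ∃ y : Fin m → ℚ, aeval (fun o : Option (Fin m) => o.elim x y) g = 0) :
    Dio (fun v => ∃ n : ℤ, v 0 = n) := by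
  obtain ⟨m, g, hg⟩ := h
  refine ⟨rename (fun o : Option (Fin m) => o.elim (Sum.inl 0) (fun i => Sum.inr (i : ℕ))) g,
    fun v => ?_⟩
  have key : ∀ y : ℕ → ℚ, (Sum.elim v y ∘
      fun o : Option (Fin m) => o.elim (Sum.inl 0) (fun i => Sum.inr (i : ℕ))) =
      fun o : Option (Fin m) => o.elim (v 0) (fun i : Fin m => y i) := by
    intro y; funext o; cases o <;> rfl
  simp only [aeval_rename, key]
  rw [hg]
  constructor
  · rintro ⟨y, hy⟩
    exact ⟨fun i => if h : i < m then y ⟨i, h⟩ else 0, by simpa using hy⟩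
  · rintro ⟨y, hy⟩
    exact ⟨_, hy⟩

theorem one_par (hZ : Dio (fun v => ∃ n : ℤ, v 0 = n)) {p : ℕ → Prop} (hp : REPred p) :
    ∃ (m : ℕ) (g : MvPolynomial (Option (Fin m)) ℤ), ∀ a : ℕ,
      p a ↔ ∃ y : Fin m → ℚ, aeval (fun o : Option (Fin m) => o.elim (a : ℚ) y) g = 0 := by
  classical
  obtain ⟨S, ⟨P, hP⟩, h2⟩ := dio_re hZ hp
  obtain ⟨m, f, hf, q, rfl⟩ := exists_fin_rename P
  refine ⟨m, rename (fun i : Fin m => Sum.elim (fun _ => none) (fun _ => some i) (f i)) q,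
    fun a => ?_⟩
  rw [← h2 (fun _ => a) a rfl, hP]
  simp only [aeval_rename]
  constructor
  · rintro ⟨Y, hY⟩
    refine ⟨fun i => Sum.elim (fun _ => (a : ℚ)) Y (f i), ?_⟩
    rw [← hY]
    congr 2
    funext i
    simp only [Function.comp]
    rcases e : f i with j | j
    · rfl
    · simp [e]
  · rintro ⟨y, hy⟩
    refine ⟨fun j => if h : ∃ i, f i = Sum.inr j then y h.choose else 0, ?_⟩
    rw [← hy]
    congr 2
    funext i
    simp only [Function.comp]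
    rcases e : f i with j | j
    · rfl
    · have h : ∃ i, f i = Sum.inr j := ⟨i, e⟩
      have : h.choose = i := hf (h.choose_spec.trans e.symm)
      simp [dif_pos h, this]

theorem fin_of_neg (h : Vale.Agent.P027G.Neg) :
    (¬ ∃ d : ℕ × List (ℤ × List ℕ) → Bool, Computable d ∧
      ∀ (n : ℕ) (F : List (ℤ × List (Fin n))), 1 ≤ n →
        (d (n, F.map fun t => (t.1, t.2.map Fin.val)) = true ↔ ∃ y : Fin n → ℚ,
          aeval y ((F.map fun t => C t.1 * (t.2.map X).prod).sum : MvPolynomial (Fin n) ℤ) = 0)) ∧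
    (∀ (n : ℕ) (f : MvPolynomial (Fin n) ℤ), ∃ F : List (ℤ × List (Fin n)),
      (F.map fun t => C t.1 * (t.2.map X).prod).sum = f) ∧
    (∃ (m : ℕ) (g : MvPolynomial (Option (Fin m)) ℤ), ∀ x : ℚ, (∃ n : ℤ, x = n) ↔
      ∃ y : Fin m → ℚ, aeval (fun o : Option (Fin m) => o.elim x y) g = 0) ∧
    (∀ p : ℕ → Prop, REPred p → ∃ (m : ℕ) (g : MvPolynomial (Option (Fin m)) ℤ), ∀ a : ℕ,
      p a ↔ ∃ y : Fin m → ℚ, aeval (fun o : Option (Fin m) => o.elim (a : ℚ) y) g = 0) ∧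
    (∃ (m : ℕ) (g : MvPolynomial (Option (Fin m)) ℤ), ¬ ComputablePred fun a : ℕ =>
      ∃ y : Fin m → ℚ, aeval (fun o : Option (Fin m) => o.elim (a : ℚ) y) g = 0) := by
  refine ⟨strong h.2, poly_surj, h.1, fun p hp => one_par (dioZ h.1) hp, ?_⟩
  obtain ⟨p, hp, hn⟩ := N1.halting
  obtain ⟨m, g, hg⟩ := one_par (dioZ h.1) hp
  exact ⟨m, g, fun hc => hn (ComputablePred.computable_iff_re_compl_re'.1
    (hc.of_eq fun a => (hg a).symm)).2⟩

end Vale.Agent.P027M.Fin
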