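import Vale.Agent.P027M.Top.Scale0
import Vale.Agent.P027M.FA.CartDef
import Vale.Agent.P027M.X.HDefs
import Vale.Agent.P027M.F.Dat

/-! # P027 route M : the monic integral model -/

set_option linter.all false

open Polynomial NumberField Vale.Agent.P022

noncomputable section

namespace Vale.Agent.P027M.Top

open B F FA

/-- the monic integral model, its constants and the norm relation -/
structure ZN {g : ℚ} (Y : Cfg g) where
  r : ℕ
  T0 : GaussianInt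
  F0 : GaussianInt[X]
  l0 : GaussianInt
  l1 : GaussianInt
  l2 : GaussianInt
  ν : ℚ
  r_ne : r ≠ 0
  T_eq : gi (Y.i : Qb) T0 = (r : Qb) ^ 4 * Y.P.g0
  T_ne : T0 ≠ 0
  l0_ne : l0 ≠ 0
  F_eq : ∀ (K : Type) [Field K] [CharZero K] (φ : GaussianInt →+* K),
    F0.map φ = X.fG (g : K) (φ T0)
  l2_eq : ∀ (K : Type) [Field K] [CharZero K] (φ : GaussianInt →+* K),
    φ l2 = (3 - (g : K)) / (g + 1) * φ T0 * φ l0
  rat : g * (l1.norm : ℚ) = 9 * ν * l0.norm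
  ν_sq : ν ^ 2 = c3 g * T0.norm
  ν_pos : 0 < ν

theorem ex_rat {x : Qb} (h : ∀ σ : GQ, σ x = x) : ∃ q : ℚ, x = q := by
  haveI : Algebra.IsAlgebraic ℚ Qb := AlgebraicClosure.isAlgebraic ℚ
  haveI : IsGalois ℚ Qb := IsAlgClosure.isGalois ℚ Qb
  have h1 : x ∈ (⊥ : IntermediateField ℚ Qb) := by
    rw [← InfiniteGalois.fixedField_fixingSubgroup ⊥, IntermediateField.fixingSubgroup_bot]
    exact fun σ => h σ
  obtain ⟨q, hq⟩ := IntermediateField.mem_bot.1 h1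
  exact ⟨q, hq.symm⟩

theorem ex_sw {i : Qb} (hi : i ^ 2 = -1) : ∃ σ : GQ, σ i = -i := by
  by_contra h
  have h1 : ∀ σ : GQ, σ i = i := fun σ => by
    have h1 : σ i ^ 2 = -1 := by rw [← map_pow, hi, map_neg, map_one]
    have h2 : (σ i - i) * (σ i + i) = 0 := by linear_combination h1 - hi
    rcases mul_eq_zero.1 h2 with h3 | h3
    · exact sub_eq_zero.1 h3
    · exact absurd ⟨σ, eq_neg_of_add_eq_zero_left h3⟩ h
  obtain ⟨q, rfl⟩ := ex_rat h1
  have : q ^ 2 = -1 := by exact_mod_cast hi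
  nlinarith [sq_nonneg q]

theorem scale {g : ℚ} (hg : 0 < g) (Y : Cfg g) (Z : ZM Y) :
    ∃ W : ZN Y, ∀ S, CartF Z.F S Z.l0 Z.s Z.l2 → CartF W.F0 S W.l0 W.l1 W.l2 := by
  have hi : (Y.i : Qb) ^ 2 = -1 := coe_sq Y.hi
  obtain ⟨a, ha⟩ : ∃ a : ℕ, (a : ℤ) = g.num := ⟨g.num.toNat, Int.toNat_of_nonneg (Rat.num_pos.2 hg).le⟩
  obtain ⟨b, hb⟩ : ∃ b : ℕ, b = g.den := ⟨_, rfl⟩
  have ha0 : a ≠ 0 := by
    rintro rfl
    exact (Rat.num_pos.2 hg).ne' (by exact_mod_cast ha.symm)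
  have hb0 : b ≠ 0 := by rw [hb]; exact g.den_nz
  have hgq : g = (a : ℚ) / b := by
    rw [hb]; have := Rat.num_div_den g; rw [← ha, Int.cast_natCast] at this; exact this.symm
  have hgK : ∀ (K : Type) [Field K] [CharZero K], (g : K) = (a : K) / b := fun K _ _ => by
    rw [hgq]; push_cast; rfl
  have cK : ∀ (K : Type) [Field K] [CharZero K], (a : K) ≠ 0 ∧ (b : K) ≠ 0 ∧ (a : K) + b ≠ 0 :=
    fun K _ _ => ⟨by exact_mod_cast ha0, by exact_mod_cast hb0, by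
      have : a + b ≠ 0 := by omega
      exact_mod_cast this⟩
  let ψ := giH (Y.i : Qb) hi
  have hψ : ∀ z, gi (Y.i : Qb) z = ψ z := fun _ => rfl
  obtain ⟨D, hD⟩ : ∃ D : GaussianInt, D = Y.d.β ^ 3 := ⟨_, rfl⟩
  have hD0 : D ≠ 0 := by rw [hD]; exact pow_ne_zero _ Y.d.β_ne
  obtain ⟨a1, b1, s1⟩ := cK Qb
  have hg1 : (a : Qb) / b + 1 = (a + b) / b := by field_simp
  have hg0 : (2 * a : Qb) ^ 4 * Y.P.g0 = 4 * a * (a + b) ^ 2 * b * ψ D := by
    have h := Y.P_D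
    rw [Par.D, Par.b2, Y.P_g, hgK Qb, hg1, ← hD, hψ] at h
    rw [← h]; field_simp; ring
  let T0 : GaussianInt := 4 * a * (a + b) ^ 2 * b * D
  let T1 : GaussianInt := 4 * a ^ 2 * (3 * b - a) * (a + b) * D
  let T2 : GaussianInt := 16 * a ^ 2 * b ^ 2 * D
  let F0 : GaussianInt[X] := X * (X ^ 2 - C T0) * (X ^ 2 - C T1) * (X ^ 2 - C T2)
  have hF : ∀ (K : Type) [Field K] [CharZero K] (φ : GaussianInt →+* K),
      F0.map φ = X.fG (g : K) (φ T0) := by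
    intro K _ _ φ
    obtain ⟨a2, b2, s2⟩ := cK K
    have k1 : (a : K) / b + 1 = (a + b) / b := by field_simp
    have e1 : φ T1 = c3 (g : K) * φ T0 := by
      simp only [T0, T1, map_mul, map_pow, map_add, map_sub, map_natCast, map_ofNat]
      rw [c3, hgK K, k1]; field_simp
    have e2 : φ T2 = d2 (g : K) * φ T0 := by
      simp only [T0, T2, map_mul, map_pow, map_add, map_natCast, map_ofNat]
      rw [d2, hgK K, k1]; field_simp; ring
    simp only [F0, X.fG, Polynomial.map_mul, Polynomial.map_sub, Polynomial.map_pow, map_X, map_C,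
      e1, e2]
  have hT : ψ T0 = ((2 * a : ℕ) : Qb) ^ 4 * Y.P.g0 := by
    simp only [T0, map_mul, map_pow, map_add, map_natCast, map_ofNat]
    push_cast
    exact hg0.symm
  have hT0 : T0 ≠ 0 := by
    intro h
    rw [h, map_zero] at hT
    exact mul_ne_zero (pow_ne_zero 4 (by exact_mod_cast (by omega : 2 * a ≠ 0))) Y.P.hg0 hT.symm
  obtain ⟨ν, hν⟩ := ex_rat (x := Y.T.ν) fun σ => by rw [← Y.hs]; exact (Y.s σ).2.2.1
  obtain ⟨x, hx⟩ := ex_rat (x := Y.T.x) fun σ => by rw [← Y.hs]; exact (Y.s σ).2.2.2.1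
  obtain ⟨σ, hσ⟩ := ex_sw hi
  have hne : σ (Y.i : Qb) ≠ Y.i := fun h => by
    have : (Y.i : Qb) = 0 := by linear_combination (h - hσ) / (-2)
    rw [this] at hi; norm_num at hi
  have sw := Y.sw hne
  have sw1 : σ Y.P.g0 = Y.T.g0' := by rw [← Y.hs]; exact sw.2.1
  have sw2 : σ Y.T.g0' = Y.P.g0 := by rw [← Y.hs]; exact sw.2.2
  have hnorm : ∀ z : GaussianInt, (z.norm : Qb) = ψ z * σ (ψ z) := fun z => by
    rw [← hψ, gi_swap hσ, gi_mul_star hi]
  have p0 := Y.P.hg0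
  have p0' := Y.T.hg0'
  have px := Y.T.x_ne
  have pν := Y.T.ν_ne
  have pg := Y.P.hg
  have pg1 := Y.P.hp1
  have hxx := Y.T.hx
  have hνν := Y.T.hν
  rw [Par.b2] at hxx
  rw [Par.c] at hνν
  have hl0 : ψ Z.l0 =
      -(2 * Y.T.ν * Y.P.g ^ 2 * Y.T.g0' / (3 * (Y.P.g + 1) * Y.T.x * Y.P.g0)) * Z.s := Z.l0_eq
  have hs0 : (Z.s : Qb) ≠ 0 := by exact_mod_cast Z.s_ne
  have hl0' : σ (ψ Z.l0) =
      -(2 * Y.T.ν * Y.P.g ^ 2 * Y.P.g0 / (3 * (Y.P.g + 1) * Y.T.x * Y.T.g0')) * Z.s := by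
    rw [hl0, hν, hx, Y.P_g]
    simp only [map_mul, map_neg, map_div₀, map_pow, map_add, map_ratCast, map_natCast, map_ofNat,
      map_one, sw1, sw2]
  have hrat : Y.P.g * (Z.s : Qb) ^ 2 = 9 * Y.T.ν * (Z.l0.norm : Qb) := by
    rw [hnorm, hl0', hl0]
    field_simp at hxx ⊢
    linear_combination 9 * hxx
  have hνq : 0 < ν := by
    rw [hν, hx, Y.P_g] at hxx
    have h1 : x ^ 2 = ν ^ 3 * (4 * g ^ 3 / (g + 1) ^ 2) := by exact_mod_cast hxx
    have h2 : x ≠ 0 := by rintro rfl; exact px (by rw [hx]; simp)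
    have h3 : 0 < ν ^ 3 * (4 * g ^ 3 / (g + 1) ^ 2) := by rw [← h1]; positivity
    have h4 : 0 < ν ^ 3 := (pos_iff_pos_of_mul_pos h3).2 (by positivity)
    exact (Odd.pow_pos_iff (by decide)).1 h4
  refine ⟨⟨2 * a, T0, F0, Z.l0, ((2 * a : ℕ) : GaussianInt) ^ 2 * Z.s,
    ((2 * a : ℕ) : GaussianInt) ^ 4 * Z.l2, ν * (2 * a : ℕ) ^ 4, by omega, hT, hT0, ?_, hF, ?_, ?_,
    ?_, by positivity⟩, fun S hS => cartF_scale Z.F F0 Z.n (2 * a) Z.n_ne (by omega) ?_ S _ _ _ hS⟩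
  · intro h
    rw [h, map_zero] at hl0
    exact mul_ne_zero (neg_ne_zero.2 (div_ne_zero
      (mul_ne_zero (mul_ne_zero (mul_ne_zero two_ne_zero pν) (pow_ne_zero 2 pg)) p0')
      (mul_ne_zero (mul_ne_zero (mul_ne_zero three_ne_zero pg1) px) p0))) hs0 hl0.symm
  · intro K _ _ φ
    obtain ⟨a2, b2, s2⟩ := cK K
    have k1 : (a : K) / b + 1 = (a + b) / b := by field_simp
    have e : ((a : GaussianInt) + b) * (((2 * a : ℕ) : GaussianInt) ^ 4 * Z.l2) =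
        (3 * b - a) * T0 * Z.l0 := by
      apply giH_inj _ hi
      have h2 : ψ Z.l2 = (3 - Y.P.g) / (Y.P.g + 1) * Y.P.g0 * ψ Z.l0 := Z.l2_eq
      show ψ _ = ψ _
      simp only [map_mul, map_pow, map_add, map_sub, map_natCast, map_ofNat]
      rw [hT, h2, Y.P_g, hgK Qb, hg1]
      field_simp
    have e' := congrArg φ e
    simp only [map_mul φ (a + b : GaussianInt), map_mul φ _ Z.l0, map_mul φ _ T0, map_add, map_sub,
      map_natCast, map_mul φ 3, map_ofNat] at e'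
    rw [hgK K, k1]
    field_simp
    linear_combination e'
  · have e : (((2 * a : ℕ) : GaussianInt) ^ 2 * (Z.s : GaussianInt)).norm =
        (((2 * a) ^ 2 * Z.s : ℕ) : ℤ) ^ 2 := by
      rw [← Nat.cast_pow, ← Nat.cast_mul, Zsqrtd.norm_natCast, ← sq]
    rw [e]
    rw [hν, Y.P_g] at hrat
    have h1 : g * (Z.s : ℚ) ^ 2 = 9 * ν * (Z.l0.norm : ℚ) := by exact_mod_cast hrat
    push_cast
    linear_combination (2 * (a : ℚ)) ^ 4 * h1
  · have h1 : ((ν * (2 * a : ℕ) ^ 4 : ℚ) : Qb) ^ 2 = ((c3 g : ℚ) : Qb) * (T0.norm : Qb) := by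
      rw [hnorm, hT, map_mul, map_pow, map_natCast, sw1, Dat.c3_cast, c3, ← Y.P_g]
      push_cast
      rw [← hν]
      linear_combination (2 * (a : Qb)) ^ 8 * hνν
    exact_mod_cast h1
  · apply Polynomial.map_injective ψ (giH_inj _ hi)
    have e1 : Z.F.map ψ = C ((Z.n : Qb) ^ 2) * Y.P.fP := by
      ext j
      rw [coeff_map, coeff_C_mul]
      exact Z.F_eq j
    rw [Polynomial.map_mul, Polynomial.map_mul, map_comp, hF Qb ψ, e1, hT, ← Y.P_g]
    rw [map_C, map_C, Polynomial.map_mul, map_C, map_X]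
    have c1 : c3 Y.P.g = Y.P.c := rfl
    have c2 : d2 Y.P.g = Y.P.d2 := rfl
    rw [X.fG, Par.fP, c1, c2]
    simp only [map_pow, map_natCast, mul_comp, sub_comp, pow_comp, X_comp, C_comp, map_mul,
      natCast_comp]
    ring

end Vale.Agent.P027M.Top
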