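import Vale.Agent.P027M.Top.Sys
import Vale.Agent.P027M.Top.Scale
import Vale.Agent.P027M.X.Top
import Vale.Agent.P027M.B2.Defs
import Vale.Agent.P027M.B.Cc
import Vale.Agent.P027M.Fo.Top
import Vale.Agent.P027M.Kp.Kap2
import Vale.Agent.P027M.TW.RhoG
import Vale.Agent.P027M.M.CAll

/-! # P027, route M : the input of the blocks B2, B3 -/

set_option linter.all false

open Polynomial NumberField Vale.Agent.P022

noncomputable section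

namespace Vale.Agent.P027M.Top

open F FA

/-- modularity, on Kummer classes -/
def MODK : Prop := ∀ (X : M.Mdl) (i : 𝓞 Qb) (N : ℕ) (ε : ZMod N →* GaussianInt) M ξ c a ρ,
  GalA i N ε M ξ c a ρ → TW.OutK X N a

/-- cyclic submodules of the torsion -/
def CYP : Prop := ∀ (g : ℚ) (Y : Cfg g) (hi : (Y.i : Qb) ^ 2 = -1) (r : ℕ)
  (ε : ZMod (lev g) →* GaussianInt) M ξ (a1 a2 : O3) (b1 b2 : GaussianInt), Std g → r ≠ 0 →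
  Hk (lev g) ε M ξ → OutP Y a1 (ε (11 : ℕ)) b1 11 → OutP Y a2 (ε (23 : ℕ)) b2 23 →
  X.CycQ (Y.i : Qb) hi (g : Qb) ((r : Qb) ^ 4 * Y.P.g0) (2 * B2.KK b1 b2)

theorem pos_of {g : ℚ} (hg : Std g) : 0 < g := by
  have := (abs_lt.1 hg.real).1
  rw [g0] at this
  linarith

theorem norm_sq (b : GaussianInt) : (6 * b ^ 2).norm.natAbs = 36 * b.norm.natAbs ^ 2 := by
  rw [sq, Zsqrtd.norm_mul, Zsqrtd.norm_mul, Int.natAbs_mul, Int.natAbs_mul, sq]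
  rfl

theorem KK_ne {b1 b2 : GaussianInt} (h1 : b1 ≠ 0) (h2 : b2 ≠ 0) : 2 * B2.KK b1 b2 ≠ 0 := by
  have k1 := Int.natAbs_ne_zero.2 (GaussianInt.norm_eq_zero.not.2 h1)
  have k2 := Int.natAbs_ne_zero.2 (GaussianInt.norm_eq_zero.not.2 h2)
  rw [B2.KK, norm_sq, norm_sq]
  positivity

theorem KK_le {b1 b2 : GaussianInt} (h1 : b1.norm ≤ 4 * ((11 : ℕ) : ℤ) ^ 2)
    (h2 : b2.norm ≤ 4 * ((23 : ℕ) : ℤ) ^ 2) : 2 * B2.KK b1 b2 ≤ 10 ^ 18 := by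
  have j1 := GaussianInt.norm_nonneg b1
  have j2 := GaussianInt.norm_nonneg b2
  have k1 : b1.norm.natAbs ≤ 484 := by omega
  have k2 : b2.norm.natAbs ≤ 2116 := by omega
  rw [B2.KK, norm_sq, norm_sq]
  calc _ ≤ 2 * (24 * (36 * 484 ^ 2 * (36 * 2116 ^ 2))) := by gcongr
    _ ≤ _ := by norm_num

/-- **the input of the blocks B2, B3** -/
theorem in23 (h1 : CFG) (h2 : GALA) (h3 : FAITH) (h4 : CK3) (h5 : TR) (h6 : ZEX) (h7 : MODK)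
    (h8 : CYP) : X.In23 := by
  refine ⟨10 ^ 18, fun g hg => ?_⟩
  obtain ⟨Y⟩ := h1 g hg
  obtain ⟨ρ, emb, ε, Mg, ξ, a, hm, hG⟩ := h2 g Y hg
  obtain ⟨b, B, d0, d1, d2, d3, hB, hb, hZ⟩ := sys h3 h4 h5 hg hm hG
  obtain ⟨XM⟩ := M.mdl
  have ok := (TW.rho_of hG).ok
  obtain ⟨e, c, he, hc, hcb⟩ := Fo.formK (S := ⟨lev g, ε, b⟩) ok (h7 XM _ _ ε Mg ξ _ a ρ hG)
    (TW.inKAP XM M.grp ok) d1 d0 hB
  obtain ⟨Z⟩ := h6 g Y
  obtain ⟨W, hW⟩ := scale (pos_of hg) Y Z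
  have c1 : c 11 = b 11 := hcb 11 (by norm_num) d2
  have c2 : c 23 = b 23 := hcb 23 (by norm_num) d3
  have hi := coe_sq Y.hi
  refine ⟨Y.i, hi, lev g, e, c, W.F0, W.T0, W.l0, W.l1, W.l2, W.ν, 2 * B2.KK (b 11) (b 23),
    ⟨ok.lv, he, hc, c1 ▸ (hb 11 (Or.inl rfl)).2, P027M.B.ccg _ _ _ _ _ c (hW _ (hZ Z))
      (Fo.heckeMod hc (pow_ne_zero _ ok.pos.ne') d0 hcb), W.F_eq ℂ _, W.T_ne, W.l0_ne,
      W.l2_eq ℂ _, W.rat, W.ν_sq, W.ν_pos⟩, ?_,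
    KK_ne (hb 11 (Or.inl rfl)).2 (hb 23 (Or.inr rfl)).2,
    KK_le (c1 ▸ hc.bd 11 (by norm_num)) (c2 ▸ hc.bd 23 (by norm_num)), ?_⟩
  · rw [lev]
    omega
  · rw [W.T_eq]
    exact h8 g Y hi W.r ε Mg ξ _ _ _ _ hg W.r_ne hG.hk (hb 11 (Or.inl rfl)).1 (hb 23 (Or.inr rfl)).1

end Vale.Agent.P027M.Top
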