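import Vale.Agent.P027M.B.Defs

/-! # P027 route M : rescaling the integral model -/

open Polynomial

namespace Vale.Agent.P027M.Top

open B

theorem cm_scale {R : Type*} [CommRing R] (F1 F2 : R[X]) (n r : R)
    (h : C (n ^ 2) * F2.comp (C (r ^ 2) * X) = C (r ^ 14) * F1) (p j i : ℕ) :
    (n ^ 2) ^ ((p - 1) / 2) * (r ^ 2) ^ ((i + 1) * p - 1) * cm F2 p j i =
      (r ^ 2) ^ j * (r ^ 14) ^ ((p - 1) / 2) * cm F1 p j i := by
  have h1 : C ((n ^ 2) ^ ((p - 1) / 2)) * (X ^ j * F2 ^ ((p - 1) / 2)).comp (C (r ^ 2) * X) =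
      C ((r ^ 2) ^ j * (r ^ 14) ^ ((p - 1) / 2)) * (X ^ j * F1 ^ ((p - 1) / 2)) := by
    have h2 := congrArg (· ^ ((p - 1) / 2)) h
    simp only [mul_pow] at h2
    rw [mul_comp, pow_comp, pow_comp, X_comp, mul_pow, C_mul, C_pow (n := (p - 1) / 2),
      C_pow (n := (p - 1) / 2), C_pow (n := j)]
    linear_combination (C (r ^ 2) ^ j * X ^ j) * h2
  have h3 := congrArg (coeff · ((i + 1) * p - 1)) h1
  simp only [coeff_C_mul, comp_C_mul_X_coeff] at h3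
  unfold cm
  linear_combination h3

theorem cm_mod (F1 F2 : GaussianInt[X]) (n r : ℕ)
    (h : C ((n : GaussianInt) ^ 2) * F2.comp (C ((r : GaussianInt) ^ 2) * X) =
      C ((r : GaussianInt) ^ 14) * F1) {p : ℕ} (hp : p.Prime) (h2 : ¬ p ∣ 2 * n * r) (j i : ℕ) :
    (p : GaussianInt) ∣ (r : GaussianInt) ^ (2 * i) * cm F2 p j i -
      (r : GaussianInt) ^ (2 * j) * cm F1 p j i := by
  have := Fact.mk hp
  have hn : (n : ZMod p) ≠ 0 := fun e => h2 (((ZMod.natCast_eq_zero_iff n p).1 e).mul_left 2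
    |>.mul_right r)
  have hr : (r : ZMod p) ≠ 0 := fun e => h2 (((ZMod.natCast_eq_zero_iff r p).1 e).mul_left _)
  have hodd : p % 2 = 1 := by
    rcases hp.eq_two_or_odd with e | e
    · exact absurd (by rw [e, mul_assoc]; exact dvd_mul_right _ _) h2
    · exact e
  obtain ⟨k, hk⟩ : ∃ k, p = 2 * k + 1 := ⟨p / 2, by omega⟩
  have e1 : (p - 1) / 2 = k := by omega
  have e2 : (i + 1) * p - 1 = i + (i + 1) * (p - 1) := by
    rw [hk]; simp only [Nat.add_sub_cancel]; rw [Nat.sub_eq_iff_eq_add (by nlinarith)]; ring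
  have key := cm_scale F1 F2 (n : GaussianInt) (r : GaussianInt) h p j i
  rw [e1, e2] at key
  have a1 : (p : ℤ) ∣ ((n : ℤ) ^ 2) ^ k * ((r : ℤ) ^ 2) ^ (i + (i + 1) * (p - 1)) -
      (r : ℤ) ^ (2 * i) := by
    rw [← ZMod.intCast_zmod_eq_zero_iff_dvd]
    have b1 := ZMod.pow_card_sub_one_eq_one hn
    have b2 := ZMod.pow_card_sub_one_eq_one hr
    have b3 : ((n : ZMod p) ^ 2) ^ k = 1 := by
      rw [← pow_mul, show 2 * k = p - 1 by omega, b1]
    have b4 : ((r : ZMod p) ^ 2) ^ (i + (i + 1) * (p - 1)) = (r : ZMod p) ^ (2 * i) := by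
      rw [pow_add, ← pow_mul, ← pow_mul, show 2 * ((i + 1) * (p - 1)) = (p - 1) * (2 * (i + 1)) by
        ring, pow_mul _ (p - 1), b2, one_pow, mul_one]
    push_cast
    rw [b3, b4, one_mul, sub_self]
  have a2 : (p : ℤ) ∣ ((r : ℤ) ^ 2) ^ j * ((r : ℤ) ^ 14) ^ k - (r : ℤ) ^ (2 * j) := by
    rw [← ZMod.intCast_zmod_eq_zero_iff_dvd]
    have b2 := ZMod.pow_card_sub_one_eq_one hr
    have b3 : ((r : ZMod p) ^ 14) ^ k = 1 := by
      rw [← pow_mul, show 14 * k = (p - 1) * 7 by omega, pow_mul, b2, one_pow]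
    push_cast
    rw [b3, mul_one, ← pow_mul, sub_self]
  obtain ⟨u, hu⟩ := a1
  obtain ⟨v, hv⟩ := a2
  have hu' := congrArg (Int.cast : ℤ → GaussianInt) hu
  have hv' := congrArg (Int.cast : ℤ → GaussianInt) hv
  push_cast at hu' hv'
  exact ⟨v * cm F1 p j i - u * cm F2 p j i, by
    linear_combination key - cm F2 p j i * hu' + cm F1 p j i * hv'⟩

theorem cartF_scale (F1 F2 : GaussianInt[X]) (n r : ℕ) (hn : n ≠ 0) (hr : r ≠ 0)
    (h : C ((n : GaussianInt) ^ 2) * F2.comp (C ((r : GaussianInt) ^ 2) * X) =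
      C ((r : GaussianInt) ^ 14) * F1) (S : Sys) (l0 l1 l2 : GaussianInt)
    (hC : CartF F1 S l0 l1 l2) :
    CartF F2 S l0 ((r : GaussianInt) ^ 2 * l1) ((r : GaussianInt) ^ 4 * l2) := by
  obtain ⟨B, hB, H⟩ := hC
  refine ⟨B * (2 * n * r), by positivity, fun p hp hd j => ?_⟩
  have H1 := H p hp (fun e => hd (e.mul_right _)) j
  have m := fun i => cm_mod F1 F2 n r h hp (fun e => hd (e.mul_left _)) j i
  obtain ⟨x0, h0⟩ := m 0
  obtain ⟨x1, h1⟩ := m 1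
  obtain ⟨x2, h2⟩ := m 2
  have s2 : star ((r : GaussianInt) ^ 2 * l1) = (r : GaussianInt) ^ 2 * star l1 := by
    rw [star_mul', star_pow, star_natCast]
  have s4 : star ((r : GaussianInt) ^ 4 * l2) = (r : GaussianInt) ^ 4 * star l2 := by
    rw [star_mul', star_pow, star_natCast]
  have v1 : ![l0, 0, (r : GaussianInt) ^ 4 * l2] j =
      (r : GaussianInt) ^ (2 * (j : ℕ)) * ![l0, 0, l2] j := by
    fin_cases j <;> simp
  have v2 : ![0, (r : GaussianInt) ^ 2 * l1, 0] j =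
      (r : GaussianInt) ^ (2 * (j : ℕ)) * ![0, l1, 0] j := by
    fin_cases j <;> simp
  rw [s2, s4, v1, v2]
  constructor
  · intro h4
    obtain ⟨⟨y, hy⟩, ⟨z, hz⟩⟩ := H1.1 h4
    exact ⟨⟨x0 * l0 + x2 * l2 + (r : GaussianInt) ^ (2 * (j : ℕ)) * y, by
        linear_combination l0 * h0 + l2 * h2 + (r : GaussianInt) ^ (2 * (j : ℕ)) * hy⟩,
      ⟨x1 * l1 + (r : GaussianInt) ^ (2 * (j : ℕ)) * z, by
        linear_combination l1 * h1 + (r : GaussianInt) ^ (2 * (j : ℕ)) * hz⟩⟩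
  · intro h4
    obtain ⟨⟨y, hy⟩, ⟨z, hz⟩⟩ := H1.2 h4
    exact ⟨⟨x0 * star l0 + x2 * star l2 + (r : GaussianInt) ^ (2 * (j : ℕ)) * y, by
        linear_combination star l0 * h0 + star l2 * h2 +
          (r : GaussianInt) ^ (2 * (j : ℕ)) * hy⟩,
      ⟨x1 * star l1 + (r : GaussianInt) ^ (2 * (j : ℕ)) * z, by
        linear_combination star l1 * h1 + (r : GaussianInt) ^ (2 * (j : ℕ)) * hz⟩⟩

end Vale.Agent.P027M.Top
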