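import Vale.Agent.P027M.Top.Hw
import Vale.Agent.P027M.FA.All0

/-! # P027, route M : the system of eigenvalues and a bad modulus prime to `11` and `23` -/

set_option linter.all false

open Polynomial NumberField Vale.Agent.P022

noncomputable section

namespace Vale.Agent.P027M.Top

open F FA

theorem strip {B p : ℕ} (hB : B ≠ 0) (hp : p.Prime) :
    ∃ B', B' ≠ 0 ∧ B' ∣ B ∧ ¬ p ∣ B' ∧ ∀ l : ℕ, l.Prime → l ∣ B → l = p ∨ l ∣ B' := by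
  obtain ⟨e, m, hm, rfl⟩ := Nat.exists_eq_pow_mul_and_not_dvd hB p hp.ne_one
  refine ⟨m, fun h => hm (h ▸ dvd_zero p), dvd_mul_left _ _, hm, fun l hl h => ?_⟩
  exact (hl.dvd_mul.1 h).imp_left fun k =>
    (Nat.prime_dvd_prime_iff_eq hl hp).1 (hl.dvd_of_dvd_pow k)

theorem ex_B {g : ℚ} (hg : Std g) (X : Cfg g) (h0 : 0 < lev g)
    (h : ∃ B : ℕ, B ≠ 0 ∧ ∀ p : ℕ, p.Prime → ¬ p ∣ B → GoodP (lev g) p ∧ Unit X p) :
    ∃ B : ℕ, B ≠ 0 ∧ 6 * lev g ∣ B ∧ ¬ 11 ∣ B ∧ ¬ 23 ∣ B ∧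
      ∀ p : ℕ, p.Prime → ¬ p ∣ B → GoodP (lev g) p ∧ Unit X p := by
  obtain ⟨B, B0, hB⟩ := h
  obtain ⟨B1, a0, -, a2, a3⟩ := strip B0 (show Nat.Prime 11 by norm_num)
  obtain ⟨B2, b0, b1, b2, b3⟩ := strip a0 (show Nat.Prime 23 by norm_num)
  refine ⟨B2 * (6 * lev g), mul_ne_zero b0 (by omega), dvd_mul_left _ _, fun k => ?_, fun k => ?_,
    fun p hp k => ?_⟩
  · exact ((show Nat.Prime 11 by norm_num).dvd_mul.1 k).elim (fun j => a2 (j.trans b1))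
      (good11 hg (Or.inl rfl)).2
  · exact ((show Nat.Prime 23 by norm_num).dvd_mul.1 k).elim b2 (good11 hg (Or.inr rfl)).2
  · by_cases j : p ∣ B
    · have : p = 11 ∨ p = 23 := (a3 p hp j).imp_right fun j1 =>
        (b3 p hp j1).resolve_right fun j2 => k (j2.mul_right _)
      exact ⟨good11 hg this, unit11 hg X this⟩
    · exact hB p hp j

theorem b_ne (hC : CK3) (hT : TR) {g : ℚ} (hg : Std g) {X : Cfg g}
    {ε : ZMod (lev g) →* GaussianInt} {M ξ} (hk : Hk (lev g) ε M ξ) {p : ℕ}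
    (hp : p = 11 ∨ p = 23) {a : O3} {b : GaussianInt} (h : OutP X a (ε p) b p) : b ≠ 0 := by
  obtain ⟨Q, hQ, hpQ⟩ := H916.exists_prime (Hw.prime hp)
  obtain ⟨φ, hφ⟩ := S.Loc.frob hQ (Hw.prime hp) hpQ
  have fr : FrobAt p Q φ := ⟨hQ, hpQ, hφ⟩
  obtain ⟨D⟩ := hT g X p Q φ (Hw.prime hp) (unit11 hg X hp) fr
  obtain ⟨e, he⟩ := exists_e hk (good11 hg hp) (iO_sq (R := ℤ_[3]))
  exact hw hC hg hp D (h.2 Q φ fr D e he).1

/-- **the system** -/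
theorem sys (hF : FAITH) (hC : CK3) (hT : TR) {g : ℚ} (hg : Std g) {X : Cfg g} {ρ emb}
    {ε : ZMod (lev g) →* GaussianInt} {M ξ c} {a : ℕ → O3} (hm : Mod X ρ emb)
    (hG : GalA X.i (lev g) ε M ξ c a ρ) : ∃ (b : ℕ → GaussianInt) (B : ℕ), B ≠ 0 ∧
      6 * lev g ∣ B ∧ ¬ 11 ∣ B ∧ ¬ 23 ∣ B ∧
      (∀ l : ℕ, l.Prime → ¬ l ∣ B → a l = Sys.a ⟨lev g, ε, b⟩ iO wO l) ∧
      (∀ p : ℕ, p = 11 ∨ p = 23 → OutP X (a p) (ε p) (b p) p ∧ b p ≠ 0) ∧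
      ∀ Z : ZM X, P027M.B.CartF Z.F ⟨lev g, ε, b⟩ Z.l0 Z.s Z.l2 := by
  obtain ⟨b, h1, h2, h3⟩ := hF g X ρ emb _ ε M ξ c a hm hG
  obtain ⟨B, B0, B1, B2, B3, hB⟩ := ex_B hg X hG.hk.pos h2
  refine ⟨b, B, B0, B1, B2, B3, fun l hl k => (h1 l (hB l hl k).1 (hB l hl k).2).1,
    fun p hp => ?_, h3⟩
  have := (h1 p (good11 hg hp) (unit11 hg X hp)).2
  exact ⟨this, b_ne hC hT hg hG.hk hp this⟩

end Vale.Agent.P027M.Top
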